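import Vale.Agent.P287T.Q0.If
import Vale.Agent.P287T.Sv.Gen

/-!
# The functorial extension given by a cocycle
-/

open CategoryTheory Limits MvPolynomial

namespace Vale.Agent.P287T.Q0

open Vale.Agent.P287Z Vale.Agent.P287Z.Gr Vale.Agent.P287T.Sv Vale.Agent.P287T.Fm Vale.Agent.P294.V

variable {ν : ℕ} (N : ℕ) (a : Fin ν → Fin ν → Sn ν)

/-- the factors of the ambient module -/
noncomputable def extF (M : GrS ν) (t : Option (Fin ν)) : GrS ν :=
  t.elim M fun _ => (twS N).obj M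

/-- the first component -/
noncomputable def extA (M : GrS ν) (m : ℤ) : (piG (extF N M)).obj ⟨m⟩ →ₗ[ℂ] M.obj ⟨m⟩ :=
  LinearMap.proj (φ := fun t => (extF N M t).obj ⟨m⟩) none

/-- the other components -/
noncomputable def extB (M : GrS ν) (m : ℤ) (i : Fin ν) :
    (piG (extF N M)).obj ⟨m⟩ →ₗ[ℂ] M.obj ⟨m + N⟩ :=
  LinearMap.proj (φ := fun t => (extF N M t).obj ⟨m⟩) (some i)

/-- an element with given components -/
noncomputable def extMk (M : GrS ν) (m : ℤ) (g : M.obj ⟨m⟩) (h : Fin ν → M.obj ⟨m + N⟩) :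
    (piG (extF N M)).obj ⟨m⟩ := fun t => match t with
  | none => g
  | some i => h i

variable {N}

theorem ext_ext {M : GrS ν} {m : ℤ} {v w : (piG (extF N M)).obj ⟨m⟩}
    (h : extA N M m v = extA N M m w) (h' : ∀ i, extB N M m i v = extB N M m i w) : v = w :=
  funext fun t => match t with
  | none => h
  | some i => h' i

theorem extA_act (M : GrS ν) (f : Sn ν) (m m' : ℤ) (v : (piG (extF N M)).obj ⟨m⟩) :
    extA N M m' (act _ f m m' v) = act M f m m' (extA N M m v) := piG_act _ f m m' v none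

theorem extB_act (M : GrS ν) (f : Sn ν) (m m' : ℤ) (i : Fin ν) (v : (piG (extF N M)).obj ⟨m⟩) :
    extB N M m' i (act _ f m m' v) = act M f (m + N) (m' + N) (extB N M m i v) :=
  (piG_act _ f m m' v (some i)).trans (congrArg (fun k => k (extB N M m i v)) (act_tw M f N m m'))

variable (N)

/-- the defining relations -/
noncomputable def extZ (M : GrS ν) (m : ℤ) : Submodule ℂ ((piG (extF N M)).obj ⟨m⟩) where
  carrier := {v | ∀ i j, act M (X j ^ N) (m + N) (m + N + N) (extB N M m i v) -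
    act M (X i ^ N) (m + N) (m + N + N) (extB N M m j v) =
      act M (a i j) m (m + N + N) (extA N M m v)}
  zero_mem' i j := by simp only [map_zero, sub_self]
  add_mem' h h' i j := by
    simp only [map_add]
    rw [← h i j, ← h' i j]
    abel
  smul_mem' c _ h i j := by
    simp only [map_smul]
    rw [← h i j, smul_sub]

variable {N a}

theorem ext_pow (i : Fin ν) {m m' : ℤ} (h : m + N = m') : Hg (2 * (m' - m)) (X i ^ N : Sn ν) :=
  hg_pow i N (by lia)

theorem ext_hg (ha : ∀ i j, (a i j).IsHomogeneous (2 * N)) (i j : Fin ν) (m : ℤ) :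
    Hg (2 * (m + N + N - m)) (a i j) := by
  rw [show m + N + N - m = ((2 * N : ℕ) : ℤ) by push_cast; ring]
  exact hg_of_hom (ha i j)

theorem ext_stb (ha : ∀ i j, (a i j).IsHomogeneous (2 * N)) (M : GrS ν) :
    Stb _ (extZ N a M) := fun m m' μ v hv i j => by
  have h1 : Hg (2 * (m' + N - (m + N))) (monomial μ.1 1 : Sn ν) := by
    rw [add_sub_add_right_eq_sub]
    exact hg_mon μ
  rw [map_eq_act, extA_act, extB_act, extB_act, act_comm M h1 (ext_pow j rfl),
    act_comm M h1 (ext_pow i rfl), act_comm M (hg_mon μ) (ext_hg ha i j m), ← hv i j, map_sub]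

variable (I : Ideal (Sn ν)) (ha : ∀ i j, (a i j).IsHomogeneous (2 * N))

theorem ext_mem (M : GA I) : grA I (subG _ _ (ext_stb ha M.obj)) := by
  have := subι_mono _ _ (ext_stb ha M.obj)
  refine ⟨killed_of_mono (subι _ _ _) fun f hf m m' => ?_, fg_of_mono (subι _ _ _)
    (fg_piG fun t => match t with
      | none => M.2.2
      | some _ => fg_tw M.2.2 N)⟩
  refine ModuleCat.hom_ext (LinearMap.ext fun v => ext_ext ?_ fun i => ?_)
  · exact (extA_act _ _ _ _ _).trans (by rw [M.2.1 f hf]; rfl)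
  · exact (extB_act _ _ _ _ _ _).trans (by rw [M.2.1 f hf]; rfl)

/-- the map of ambient modules -/
noncomputable def extL {M M' : GrS ν} (f : M ⟶ M') (m : ℤ) :
    (piG (extF N M)).obj ⟨m⟩ →ₗ[ℂ] (piG (extF N M')).obj ⟨m⟩ where
  toFun v := extMk N M' m (f.app ⟨m⟩ (extA N M m v)) fun i => f.app ⟨m + N⟩ (extB N M m i v)
  map_add' _ _ := ext_ext (map_add (f.app ⟨m⟩).hom _ _) fun _ => map_add (f.app ⟨m + N⟩).hom _ _
  map_smul' _ _ :=
    ext_ext (map_smul (f.app ⟨m⟩).hom _ _) fun _ => map_smul (f.app ⟨m + N⟩).hom _ _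

theorem extL_mem {M M' : GrS ν} (f : M ⟶ M') (m : ℤ) (v) (hv : v ∈ extZ N a M m) :
    extL f m v ∈ extZ N a M' m := fun i j => by
  have h := congrArg (f.app ⟨m + N + N⟩) (hv i j)
  rw [map_sub, act_natural_apply, act_natural_apply, act_natural_apply] at h
  exact h

/-- the functor -/
noncomputable def extE : GA I ⥤ GA I where
  obj M := ⟨_, ext_mem I ha M⟩
  map {M _} f := ObjectProperty.homMk
    { app := fun m => ModuleCat.ofHom ((extL f.hom m.deg).restrict (extL_mem f.hom m.deg))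
      naturality := fun m _ μ => ModuleCat.hom_ext (LinearMap.ext fun v => Subtype.ext
        (ext_ext (congr($(f.hom.naturality μ) (extA N M.obj m.deg v.1))) fun i =>
          congr($(f.hom.naturality ((Dg.sh ν N).map μ)) (extB N M.obj m.deg i v.1)))) }
  map_id _ := ObjectProperty.hom_ext _ (NatTrans.ext (funext fun _ => ModuleCat.hom_ext
    (LinearMap.ext fun _ => Subtype.ext (ext_ext rfl fun _ => rfl))))
  map_comp _ _ := ObjectProperty.hom_ext _ (NatTrans.ext (funext fun _ => ModuleCat.hom_ext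
    (LinearMap.ext fun _ => Subtype.ext (ext_ext rfl fun _ => rfl))))

/-- the inclusion in one degree -/
noncomputable def extI (M : GrS ν) (m : ℤ) : M.obj ⟨m⟩ →ₗ[ℂ] extZ N a M m where
  toFun g := ⟨extMk N M m 0 fun i => act M (X i ^ N) m (m + N) g, fun i j => by
    change act M _ _ _ (act M _ _ _ g) - act M _ _ _ (act M _ _ _ g) = act M _ _ _ 0
    rw [act_comm M (ext_pow i rfl) (ext_pow j rfl), sub_self, map_zero]⟩
  map_add' v w := Subtype.ext (ext_ext (add_zero _).symm fun i =>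
    map_add (act M (X i ^ N) m (m + N)).hom _ _)
  map_smul' c v := Subtype.ext (ext_ext (smul_zero (A := M.obj ⟨m⟩) c).symm fun i =>
    map_smul (act M (X i ^ N) m (m + N)).hom _ _)

/-- the inclusion -/
noncomputable def extι : 𝟭 _ ⟶ extE I ha where
  app M := ObjectProperty.homMk
    { app := fun m => ModuleCat.ofHom (extI M.obj m.deg)
      naturality := fun m m' μ => ModuleCat.hom_ext (LinearMap.ext fun v => Subtype.ext
        (ext_ext (map_zero (M.obj.map μ).hom).symm fun i => by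
          have h1 := map_eq_act M.obj (a := m.deg) (b := m'.deg) μ v
          have h2 := map_eq_act M.obj (a := m.deg + N) (b := m'.deg + N) ((Dg.sh ν N).map μ)
            (act M.obj (X i ^ N) m.deg (m.deg + N) v)
          exact (congrArg (act M.obj (X i ^ N) m'.deg (m'.deg + N)) h1).trans
            ((act_comm M.obj (hg_mon μ) (ext_pow i rfl) v).trans h2.symm))) }
  naturality M M' f := ObjectProperty.hom_ext _ (NatTrans.ext (funext fun m => ModuleCat.hom_ext
    (LinearMap.ext fun v => Subtype.ext (ext_ext (map_zero (f.hom.app m).hom).symm fun i =>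
      (act_natural_apply f.hom (X i ^ N) m.deg (m.deg + N) v).symm))))

/-- the projection -/
noncomputable def extρ : extE I ha ⟶ 𝟭 _ where
  app M := ObjectProperty.homMk
    { app := fun m => ModuleCat.ofHom (extA N M.obj m.deg ∘ₗ (extZ N a M.obj m.deg).subtype)
      naturality := fun _ _ _ => rfl }
  naturality _ _ _ := rfl

/-- the local sections -/
noncomputable def extη (i : Fin ν) : extE I ha ⟶ twA I N where
  app M := ObjectProperty.homMk
    { app := fun m => ModuleCat.ofHom (extB N M.obj m.deg i ∘ₗ (extZ N a M.obj m.deg).subtype)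
      naturality := fun _ _ _ => rfl }
  naturality _ _ _ := rfl

theorem ext_inj {M : GrS ν} (hM : fg M) : ∃ n : ℤ, ∀ m ≥ n, ∀ g : M.obj ⟨m⟩,
    (∀ i, act M (X i ^ N) m (m + N) g = 0) → g = 0 := by
  let Z : ∀ m : ℤ, Submodule ℂ (M.obj ⟨m⟩) := fun m =>
    ⨅ i, LinearMap.ker (act M (X i ^ N) m (m + N)).hom
  have hZ : ∀ m g, g ∈ Z m ↔ ∀ i, act M (X i ^ N) m (m + N) g = 0 := fun m g =>
    Submodule.mem_iInf _
  obtain ⟨n, hn⟩ := gen_large hM (Z := Z) (fun m m' μ v hv => (hZ _ _).2 fun i => by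
    rw [map_eq_act, act_comm M (hg_mon μ) (ext_pow i rfl), (hZ _ _).1 hv i, map_zero]) N
  refine ⟨n, fun m hm g hg => ?_⟩
  obtain ⟨m, rfl⟩ : ∃ m0, m = m0 + N := ⟨m - N, by lia⟩
  obtain ⟨w, hw, rfl⟩ := hn m _ rfl hm g ((hZ _ _).2 hg)
  exact Finset.sum_eq_zero fun i _ => (hZ _ _).1 (hw i) i

include ha in
theorem ext_mid (M : GA I) : ∃ n : ℤ, ∀ m ≥ n, ∀ v ∈ extZ N a M.obj m, extA N M.obj m v = 0 →
    ∃ g, ∀ i, act M.obj (X i ^ N) m (m + N) g = extB N M.obj m i v := by
  obtain ⟨n, hn⟩ := gen_large (M := piG (extF N M.obj)) (fg_piG fun t => match t with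
      | none => M.2.2
      | some _ => fg_tw M.2.2 N)
    (Z := fun m => extZ N a M.obj m ⊓ LinearMap.ker (extA N M.obj m))
    (fun m m' μ v hv => ⟨ext_stb ha M.obj m m' μ v hv.1, by
      rw [SetLike.mem_coe, LinearMap.mem_ker, map_eq_act, extA_act,
        LinearMap.mem_ker.1 hv.2, map_zero]⟩) N
  refine ⟨n, fun m hm v hv h0 => ?_⟩
  obtain ⟨m, rfl⟩ : ∃ m0, m = m0 + N := ⟨m - N, by lia⟩
  obtain ⟨w, hw, rfl⟩ := hn m _ rfl hm v ⟨hv, h0⟩
  refine ⟨∑ k, extB N M.obj m k (w k), fun i => ?_⟩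
  rw [map_sum, map_sum]
  refine Finset.sum_congr rfl fun k _ => ?_
  have h1 := (hw k).1 k i
  rw [LinearMap.mem_ker.1 (hw k).2, map_zero, sub_eq_zero] at h1
  rw [extB_act, h1]

include ha in
theorem ext_sur (hc : ∀ i j k, X k ^ N * a i j + X i ^ N * a j k - X j ^ N * a i k ∈ I)
    (M : GA I) : ∃ n : ℤ, ∀ m ≥ n, ∀ g, ∃ v ∈ extZ N a M.obj m, extA N M.obj m v = g := by
  obtain ⟨n, hn⟩ := gen_top M.2.2 N
  refine ⟨n, fun m hm g => ?_⟩
  obtain ⟨m, rfl⟩ : ∃ m0, m = m0 + N := ⟨m - N, by lia⟩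
  obtain ⟨w, rfl⟩ := hn m _ rfl hm g
  refine ⟨∑ k, extMk N M.obj (m + N) (act M.obj (X k ^ N) m (m + N) (w k))
    fun i => act M.obj (a i k) m (m + N + N) (w k), sum_mem fun k _ i j => ?_, map_sum _ _ _⟩
  change act M.obj _ _ _ (act M.obj (a i k) _ _ (w k)) -
    act M.obj _ _ _ (act M.obj (a j k) _ _ (w k)) = act M.obj _ _ _ (act M.obj (X k ^ N) _ _ (w k))
  rw [← act_mul_apply _ (ext_hg ha i k m), ← act_mul_apply _ (ext_hg ha j k m),
    ← act_mul_apply _ (ext_pow k rfl), ← act_sub_apply, eq_comm, ← sub_eq_zero, ← act_sub_apply,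
    show X k ^ N * a i j - (a i k * X j ^ N - a j k * X i ^ N) =
      X k ^ N * a i j + X i ^ N * a j k - X j ^ N * a i k by ring, M.2.1 _ (hc i j k)]
  rfl

/-- **EXT** -/
theorem stExt (I : Ideal (Sn ν)) [Fact (IsHom I)] : StExt I := by
  intro N a ha hc
  have hw : ∀ M, (extι I ha).app M ≫ (extρ I ha).app M = 0 := fun M =>
    ObjectProperty.hom_ext _ (NatTrans.ext (funext fun _ => ModuleCat.hom_ext
      (LinearMap.ext fun _ => rfl)))
  refine ⟨⟨extE I ha, ⟨fun {M M' f g} => ObjectProperty.hom_ext _ (NatTrans.ext (funext fun m =>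
    ModuleCat.hom_ext (LinearMap.ext fun v => Subtype.ext (ext_ext rfl fun _ => rfl))))⟩,
    extι I ha, extρ I ha, extη I ha, hw, fun M => ?_, fun M i j m x => x.2 i j⟩⟩
  refine ShortComplex.ShortExact.mk' (exact_of_exL _ ?_) ?_ ?_
  · obtain ⟨n, hn⟩ := ext_mid I ha M
    refine ⟨n, fun m hm v hv => ?_⟩
    obtain ⟨g, hg⟩ := hn m hm v.1 v.2 hv
    exact ⟨g, Subtype.ext (ext_ext (Eq.symm hv) hg)⟩
  · obtain ⟨n, hn⟩ := ext_inj (N := N) M.2.2
    exact (ObjectProperty.SerreClassLocalization.mono_map_iff (piI I) (tors I) _).2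
      ((mono_iff I _).2 ⟨n, fun m hm => (injective_iff_map_eq_zero _).2 fun g hg =>
        hn m hm g fun i => congrArg (fun v : extZ N a M.obj m => extB N M.obj m i v.1) hg⟩)
  · obtain ⟨n, hn⟩ := ext_sur I ha hc M
    exact (ObjectProperty.SerreClassLocalization.epi_map_iff (piI I) (tors I) _).2
      ((epi_iff I _).2 ⟨n, fun m hm g => (hn m hm g).elim fun v hv => ⟨⟨v, hv.1⟩, hv.2⟩⟩)

end Vale.Agent.P287T.Q0
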