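import Vale.Agent.P287T.Q0.If
import Mathlib.Algebra.Homology.DerivedCategory.ShortExact

/-!
# The natural transformation from the identity to the shift given by a functorial extension
-/

open CategoryTheory Limits MvPolynomial Pretriangulated HomologicalComplex

universe w v u v' u'

namespace Vale.Agent.P287T.Q0

section Abs

variable {𝒜 : Type u} [Category.{v} 𝒜] [Abelian 𝒜] {E : 𝒜 ⥤ 𝒜} [E.Additive]

/-- a natural map `M ⟶ E M` on complexes -/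
noncomputable def inC (ι : 𝟭 𝒜 ⟶ E) (C : CochainComplex 𝒜 ℤ) :
    C ⟶ (E.mapHomologicalComplex _).obj C where
  f k := ι.app (C.X k)
  comm' k l _ := (ι.naturality (C.d k l)).symm

/-- a natural map `E M ⟶ M` on complexes -/
noncomputable def outC (ρ : E ⟶ 𝟭 𝒜) (C : CochainComplex 𝒜 ℤ) :
    (E.mapHomologicalComplex _).obj C ⟶ C where
  f k := ρ.app (C.X k)
  comm' k l _ := (ρ.naturality (C.d k l)).symm

variable {𝒞 : Type u'} [Category.{v'} 𝒞] [Abelian 𝒞] (π : 𝒜 ⥤ 𝒞) [π.Additive]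
  {ι : 𝟭 𝒜 ⟶ E} {ρ : E ⟶ 𝟭 𝒜} (w : ∀ M, ι.app M ≫ ρ.app M = 0)

/-- the short complex of complexes -/
noncomputable def sC (C : CochainComplex 𝒜 ℤ) : ShortComplex (CochainComplex 𝒞 ℤ) :=
  (ShortComplex.mk (inC ι C) (outC ρ C) (by ext k; exact w _)).map
    (π.mapHomologicalComplex (ComplexShape.up ℤ))

/-- functoriality -/
noncomputable def sM {C C' : CochainComplex 𝒜 ℤ} (f : C ⟶ C') : sC π w C ⟶ sC π w C' where
  τ₁ := (π.mapHomologicalComplex _).map f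
  τ₂ := (π.mapHomologicalComplex _).map ((E.mapHomologicalComplex _).map f)
  τ₃ := (π.mapHomologicalComplex _).map f
  comm₁₂ := by
    ext k
    exact (π.map_comp _ _).symm.trans ((congrArg π.map (ι.naturality (f.f k))).trans
      (π.map_comp _ _))
  comm₂₃ := by
    ext k
    exact (π.map_comp _ _).symm.trans ((congrArg π.map (ρ.naturality (f.f k))).trans
      (π.map_comp _ _))

variable {π w}
  (ex : ∀ M, ((ShortComplex.mk (ι.app M) (ρ.app M) (w M)).map π).ShortExact)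

include ex in
theorem sC_ex (C : CochainComplex 𝒜 ℤ) : (sC π w C).ShortExact :=
  shortExact_of_degreewise_shortExact _ fun k => ex (C.X k)

variable [HasDerivedCategory.{w} 𝒞]

/-- the connecting map -/
noncomputable def del (C : CochainComplex 𝒜 ℤ) :
    DerivedCategory.Q.obj ((π.mapHomologicalComplex _).obj C) ⟶
      (DerivedCategory.Q.obj ((π.mapHomologicalComplex (ComplexShape.up ℤ)).obj C))⟦(1 : ℤ)⟧ :=
  DerivedCategory.triangleOfSESδ (sC_ex ex C)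

theorem del_nat {C C' : CochainComplex 𝒜 ℤ} (f : C ⟶ C') :
    del ex C ≫ (DerivedCategory.Q.map ((π.mapHomologicalComplex _).map f))⟦(1 : ℤ)⟧' =
      DerivedCategory.Q.map ((π.mapHomologicalComplex _).map f) ≫ del ex C' :=
  DerivedCategory.triangleOfSESδ_naturality (sC_ex ex C) (sC_ex ex C') (sM π w f)

omit [Abelian 𝒞] [HasDerivedCategory.{w} 𝒞] in
theorem split_of {A B A' B' : 𝒞} {f : A ⟶ B} {g : A' ⟶ B'} (a : A ≅ A') (b : B ≅ B')
    (h : f ≫ b.hom = a.hom ≫ g) (s : B ⟶ A) (hs : s ≫ f = 𝟙 B) :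
    ∃ s' : B' ⟶ A', s' ≫ g = 𝟙 B' :=
  ⟨b.inv ≫ s ≫ a.hom, by
    rw [Category.assoc, Category.assoc, ← h, ← Category.assoc s, hs, Category.id_comp,
      b.inv_hom_id]⟩

theorem split [PreservesFiniteLimits π] [PreservesFiniteColimits π] {C : CochainComplex 𝒜 ℤ}
    (h : del ex C = 0) (j : ℤ) : IsSplitEpi (π.map (homologyMap (outC ρ C) j)) := by
  obtain ⟨s, hs⟩ := Triangle.coyoneda_exact₃ _
    (DerivedCategory.triangleOfSES_distinguished (sC_ex ex C)) (𝟙 _)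
    ((Category.id_comp _).trans h)
  have h1 : (DerivedCategory.homologyFunctor 𝒞 j).map s ≫
      (DerivedCategory.Q ⋙ DerivedCategory.homologyFunctor 𝒞 j).map (sC π w C).g = 𝟙 _ :=
    (Functor.map_comp _ _ _).symm.trans ((congrArg _ hs.symm).trans (CategoryTheory.Functor.map_id _ _))
  obtain ⟨s₁, h2⟩ := split_of ((DerivedCategory.homologyFunctorFactors 𝒞 j).app _)
    ((DerivedCategory.homologyFunctorFactors 𝒞 j).app _)
    ((DerivedCategory.homologyFunctorFactors 𝒞 j).hom.naturality (sC π w C).g) _ h1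
  obtain ⟨s₂, h3⟩ := split_of _ _ (ShortComplex.mapHomologyIso_hom_naturality
    ((shortComplexFunctor 𝒜 (ComplexShape.up ℤ) j).map (outC ρ C)) π) s₁ h2
  exact ⟨⟨⟨s₂, h3⟩⟩⟩

theorem exists_hom (G : 𝒜 ⥤ 𝒜) [G.Additive] [PreservesFiniteLimits G] [PreservesFiniteColimits G]
    {S' S : ShortComplex 𝒜} (ψ : S' ⟶ S.map G) (t₁ : S'.X₁ ⟶ G.obj S.X₁) (t₂ : S'.X₂ ⟶ G.obj S.X₂)
    (h₂ : ψ.τ₂ = t₂) (h : t₁ ≫ G.map S.f = S'.f ≫ t₂) :
    ∃ (c : S'.cycles ⟶ G.obj S.cycles) (e : S'.homology ⟶ G.obj S.homology),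
      c ≫ G.map S.iCycles = S'.iCycles ≫ t₂ ∧ c ≫ G.map S.homologyπ = S'.homologyπ ≫ e := by
  obtain ⟨c, hc⟩ : ∃ c : S'.cycles ⟶ G.obj S.cycles, c ≫ G.map S.iCycles = S'.iCycles ≫ t₂ :=
    ⟨ShortComplex.cyclesMap ψ ≫ (S.mapCyclesIso G).hom, (Category.assoc _ _ _).trans
      ((congrArg (_ ≫ ·) (S.mapCyclesIso_hom_iCycles G)).trans
        ((ShortComplex.cyclesMap_i ψ).trans (congrArg (_ ≫ ·) h₂)))⟩
  have h1 : S'.toCycles ≫ c = t₁ ≫ G.map S.toCycles := by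
    rw [← cancel_mono (G.map S.iCycles), Category.assoc, hc, ShortComplex.toCycles_i_assoc,
      Category.assoc, ← G.map_comp, S.toCycles_i, h]
  have h0 : S'.toCycles ≫ c ≫ G.map S.homologyπ = 0 := by
    rw [reassoc_of% h1, ← G.map_comp, S.toCycles_comp_homologyπ, G.map_zero, comp_zero]
  exact ⟨c, S'.descHomology _ h0, hc, (S'.π_descHomology _ _).symm⟩

end Abs

open Vale.Agent.P287Z Vale.Agent.P287T.Fm Vale.Agent.P294.V

variable {ν : ℕ} {I : Ideal (Gr.Sn ν)} {N : ℕ} {a : Fin ν → Fin ν → Gr.Sn ν}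
  {H' H Z' Z : Gr.GA I} {r : H' ⟶ H} {e : Fin ν → (H' ⟶ (Gr.twA I N).obj H)} {r' : Z' ⟶ Z}
  {e' : Fin ν → (Z' ⟶ (Gr.twA I N).obj Z)}

theorem Rel.aux (p : Z' ⟶ H') (q : Z ⟶ H) (h1 : r' ≫ q = p ≫ r)
    (h2 : ∀ i, e' i ≫ (Gr.twA I N).map q = p ≫ e i) (i j : Fin ν) (m : ℤ) (x : Z'.obj.obj ⟨m⟩) :
    q.hom.app ⟨m + N + N⟩ (Gr.act Z.obj (X j ^ N) (m + N) (m + N + N) ((e' i).hom.app ⟨m⟩ x) -
      Gr.act Z.obj (X i ^ N) (m + N) (m + N + N) ((e' j).hom.app ⟨m⟩ x) -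
      Gr.act Z.obj (a i j) m (m + N + N) (r'.hom.app ⟨m⟩ x)) =
    Gr.act H.obj (X j ^ N) (m + N) (m + N + N) ((e i).hom.app ⟨m⟩ (p.hom.app ⟨m⟩ x)) -
      Gr.act H.obj (X i ^ N) (m + N) (m + N + N) ((e j).hom.app ⟨m⟩ (p.hom.app ⟨m⟩ x)) -
      Gr.act H.obj (a i j) m (m + N + N) (r.hom.app ⟨m⟩ (p.hom.app ⟨m⟩ x)) := by
  rw [map_sub, map_sub]
  refine congrArg₂ _ (congrArg₂ _ ?_ ?_) ?_
  · exact (Gr.act_natural_apply q.hom _ _ _ _).trans
      (congrArg _ (congrArg (fun k : Z' ⟶ _ => k.hom.app ⟨m⟩ x) (h2 i)))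
  · exact (Gr.act_natural_apply q.hom _ _ _ _).trans
      (congrArg _ (congrArg (fun k : Z' ⟶ _ => k.hom.app ⟨m⟩ x) (h2 j)))
  · exact (Gr.act_natural_apply q.hom _ _ _ _).trans
      (congrArg _ (congrArg (fun k : Z' ⟶ _ => k.hom.app ⟨m⟩ x) h1))

theorem Rel.of_mono (h : Rel N a r e) (p : Z' ⟶ H') (q : Z ⟶ H) [Mono q] (h1 : r' ≫ q = p ≫ r)
    (h2 : ∀ i, e' i ≫ (Gr.twA I N).map q = p ≫ e i) : Rel N a r' e' := fun i j m x =>
  sub_eq_zero.1 (Gr.GA_app_injective I q (m + N + N)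
    ((Rel.aux p q h1 h2 i j m x).trans ((sub_eq_zero.2 (h i j m _)).trans (map_zero _).symm)))

theorem Rel.of_epi (h : Rel N a r' e') (p : Z' ⟶ H') (q : Z ⟶ H) [Epi p] (h1 : r' ≫ q = p ≫ r)
    (h2 : ∀ i, e' i ≫ (Gr.twA I N).map q = p ≫ e i) : Rel N a r e := fun i j m y => by
  obtain ⟨x, rfl⟩ := Gr.GA_app_surjective I p m y
  exact sub_eq_zero.1 ((Rel.aux p q h1 h2 i j m x).symm.trans
    ((congrArg _ (sub_eq_zero.2 (h i j m x))).trans (map_zero _)))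

theorem Rel.homology {S' S : ShortComplex (Gr.GA I)} (φ : S' ⟶ S)
    (ψ : Fin ν → (S' ⟶ S.map (Gr.twA I N))) (h : Rel N a φ.τ₂ fun i => (ψ i).τ₂) :
    ∃ e, Rel N a (ShortComplex.homologyMap φ) e := by
  choose c e hc he using fun i => exists_hom (Gr.twA I N) (ψ i) (ψ i).τ₁ (ψ i).τ₂ rfl (ψ i).comm₁₂
  exact ⟨e, Rel.of_epi (h.of_mono (e' := c) S'.iCycles S.iCycles (ShortComplex.cyclesMap_i φ) hc)
    S'.homologyπ S.homologyπ (ShortComplex.homologyπ_naturality φ).symm he⟩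

variable [Fact (IsHom I)]

theorem Ext.rel_homology (T : Ext I N a) (C : CochainComplex (Gr.GA I) ℤ) (j : ℤ) :
    haveI := T.add
    ∃ e, Rel N a (homologyMap (outC T.ρ C) j) e := by
  have := T.add
  exact Rel.homology ((shortComplexFunctor _ (ComplexShape.up ℤ) j).map (outC T.ρ C))
    (fun i => (C.sc j).mapNatTrans (T.η i)) (T.rel _)

end Vale.Agent.P287T.Q0
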