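import Vale.Agent.P287T.Q0.If
import Vale.Agent.P287T.Fm.Tt
import Mathlib.Algebra.Homology.DerivedCategory.FullyFaithful
import Mathlib.CategoryTheory.Triangulated.TStructure.TruncLTGE

/-!
# Devissage to a general point
-/

open CategoryTheory Limits Pretriangulated MvPolynomial

universe w v u

namespace Vale.Agent.P287T.Q0

open Vale.Agent.P287Z Vale.Agent.P287T.Fm Vale.Agent.P294.V

section gen

open DerivedCategory DerivedCategory.TStructure DerivedCategory.HomologySequence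

variable {A : Type u} [Category.{v} A] [Abelian A] [HasDerivedCategory.{w} A]
  (T : DerivedCategory A)

/-- no maps to the shifts of `T` -/
def NoHom (Y : DerivedCategory A) : Prop := ∀ (k : ℤ) (ξ : Y ⟶ T⟦k⟧), ξ = 0

variable {T}

theorem NoHom.iso {Y Y' : DerivedCategory A} (h : NoHom T Y) (e : Y' ≅ Y) : NoHom T Y' :=
  fun k ξ => by rw [← cancel_epi e.inv, h k (e.inv ≫ ξ), comp_zero]

theorem NoHom.shift {Y : DerivedCategory A} (h : NoHom T Y) (n : ℤ) : NoHom T (Y⟦n⟧) :=
  fun k ξ => by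
    have h1 := h (k + -n) ((shiftShiftNeg Y n).inv ≫ ξ⟦-n⟧' ≫
      (shiftFunctorAdd' _ k (-n) _ rfl).inv.app T)
    rw [Preadditive.IsIso.comp_left_eq_zero, Preadditive.IsIso.comp_right_eq_zero] at h1
    exact (shiftFunctor _ (-n)).map_injective (h1.trans (Functor.map_zero _ _ _).symm)

theorem NoHom.ext {D : Triangle (DerivedCategory A)} (hD : D ∈ distTriang _)
    (h1 : NoHom T D.obj₁) (h3 : NoHom T D.obj₃) : NoHom T D.obj₂ := fun k ξ => by
  obtain ⟨g, hg⟩ := Triangle.yoneda_exact₂ D hD ξ (h1 k _)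
  rw [hg, h3 k g, comp_zero]

theorem noHom_of (Y : DerivedCategory A) (a b : ℤ) (ha : Y.IsGE a) (hb : Y.IsLE b)
    (h : ∀ j, a ≤ j → j ≤ b → NoHom T ((singleFunctor A 0).obj ((homologyFunctor A j).obj Y))) :
    NoHom T Y := by
  obtain ⟨n, hn⟩ : ∃ n : ℕ, b - a < n := ⟨(b - a + 1).toNat, by lia⟩
  induction n generalizing Y a with
  | zero => exact fun k ξ => (t.isZero Y b a (by push_cast at hn; lia)).eq_of_src _ _
  | succ n ih =>
    by_cases hab : b < a
    · exact fun k ξ => (t.isZero Y b a hab).eq_of_src _ _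
    obtain ⟨D, hD, e, h1, h3⟩ : ∃ D : Triangle (DerivedCategory A), D ∈ distTriang _ ∧
        ∃ _ : Y ≅ D.obj₂, D.obj₁.IsLE a ∧ D.obj₃.IsGE (a + 1) :=
      ⟨_, t.triangleLTGE_distinguished (a + 1) Y, Iso.refl _, t.isLE_truncLT_obj .., inferInstance⟩
    have g2 : D.obj₂.IsGE a := t.isGE_of_iso e a
    have l2 : D.obj₂.IsLE b := t.isLE_of_iso e b
    have i1 : ∀ j ≤ a, IsIso ((homologyFunctor A j).map D.mor₁) := fun j hj => by
      have := (epi_homologyMap_mor₁_iff D hD j).2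
        ((isZero_of_isGE D.obj₃ (a + 1) j (by lia)).eq_of_tgt _ _)
      have := (mono_homologyMap_mor₁_iff D hD (j - 1) j).2
        ((isZero_of_isGE D.obj₃ (a + 1) (j - 1) (by lia)).eq_of_src _ _)
      exact isIso_of_mono_of_epi _
    have i2 : ∀ j, a < j → IsIso ((homologyFunctor A j).map D.mor₂) := fun j hj => by
      have := (epi_homologyMap_mor₂_iff D hD j (j + 1)).2
        ((isZero_of_isLE D.obj₁ a (j + 1) (by lia)).eq_of_tgt _ _)
      have := (mono_homologyMap_mor₂_iff D hD j).2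
        ((isZero_of_isLE D.obj₁ a j hj).eq_of_src _ _)
      exact isIso_of_mono_of_epi _
    refine (NoHom.ext hD ?_ ?_).iso e
    · have : D.obj₁.IsGE a := (isGE_iff _ _).2 fun j hj =>
        have := i1 j hj.le
        (isZero_of_isGE D.obj₂ a j hj).of_iso (asIso ((homologyFunctor A j).map D.mor₁))
      obtain ⟨Z, ⟨e1⟩⟩ := exists_iso_singleFunctor_obj_of_isGE_of_isLE D.obj₁ a
      have := i1 a le_rfl
      have e2 : Z ≅ (homologyFunctor A a).obj Y :=
        ((singleFunctorCompHomologyFunctorIso A a).app Z).symm ≪≫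
          (homologyFunctor A a).mapIso e1.symm ≪≫ asIso ((homologyFunctor A a).map D.mor₁) ≪≫
          (homologyFunctor A a).mapIso e.symm
      exact (((h a le_rfl (by lia)).iso ((singleFunctor A 0).mapIso e2)).shift (-a)).iso
        (e1 ≪≫ (((singleFunctors A).shiftIso (-a) a 0 (by lia)).app Z).symm)
    · refine ih D.obj₃ (a + 1) h3 ((isLE_iff _ _).2 fun j hj => ?_) (fun j hj hj' => ?_)
        (by push_cast at hn; lia)
      · have := i2 j (by lia)
        exact (isZero_of_isLE D.obj₂ b j hj).of_iso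
          (asIso ((homologyFunctor A j).map D.mor₂)).symm
      · have := i2 j (by lia)
        exact (h j (by lia) hj').iso ((singleFunctor A 0).mapIso
          ((homologyFunctor A j).mapIso e ≪≫ asIso ((homologyFunctor A j).map D.mor₂)).symm)

end gen

variable {ν : ℕ} (I : Ideal (Gr.Sn ν)) [Fact (IsHom I)]

/-- a point off finitely many hypersurfaces -/
theorem exists_gen (hS : Surf I) {σ : Type} (s : Finset σ) (h : σ → Gr.Sn ν)
    (hh : ∀ i ∈ s, h i ∉ I) : ∃ v, Pt I v ∧ ∀ i ∈ s, eval v (h i) ≠ 0 := by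
  obtain ⟨v₀, hv₀, hI⟩ := hS.ne
  obtain ⟨k, hk⟩ := Function.ne_iff.1 hv₀
  have hX : (X k : Gr.Sn ν) ∉ I := fun hX => hk (by
    have := (La.mem_mv (v := v₀)).1 (La.ptI_le v₀ (hI hX))
    rwa [eval_X] at this)
  have := hS.prime
  have h1 : X k * ∏ i ∈ s, h i ∉ I.radical := by
    rw [hS.prime.radical]
    intro h1
    rcases hS.prime.mem_or_mem h1 with h2 | h2
    · exact hX h2
    · obtain ⟨i, hi, h3⟩ := Ideal.IsPrime.prod_mem_iff.1 h2
      exact hh i hi h3
  obtain ⟨v, hv⟩ := not_forall.1 (mt La.nst h1)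
  obtain ⟨hv, h2⟩ := Classical.not_imp.1 hv
  rw [map_mul, map_prod, eval_X, mul_eq_zero, not_or, Finset.prod_eq_zero_iff] at h2
  exact ⟨v, ⟨fun h0 => h2.1 (by rw [h0]; rfl), La.le_ptI (ih I) hv⟩,
    fun i hi h3 => h2.2 ⟨i, hi, h3⟩⟩

variable [HasDerivedCategory.{w} (P294Z.Coh (PI I))]

theorem stDev : StDev I := fun hS C hC hT => by
  choose a ha using fun i => (hC i).1
  choose b hb using fun i => (hC i).2
  choose d h hh h0 hM using hT
  obtain ⟨v, hv, h1⟩ := exists_gen I hS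
    (Finset.univ.sigma fun i : Fin 3 => Finset.Icc (a i) (b i)) (fun x => h x.1 x.2)
    fun x _ => h0 _ _
  obtain ⟨k, hk⟩ := Function.ne_iff.1 hv.1
  refine ⟨v, hv, fun i => noHom_of _ (a i) (b i) (ha i) (hb i) fun j hj hj' => ?_⟩
  have h2 : NoHom ((sg I).obj (Ov I hv)) ((sg I).obj ((piI I).obj ((C i).homology j))) :=
    ext_killed (piI I) hv.2 hk (hh i j) (h1 ⟨i, j⟩ (by simp [hj, hj'])) (hM i j)
  exact h2.iso ((sg I).mapIso ((DerivedCategory.homologyFunctorFactors _ j).app _ ≪≫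
    ((C i).sc j).mapHomologyIso (piI I)))

end Vale.Agent.P287T.Q0
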