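import Vale.Agent.P287T.Q0.If
import Vale.Agent.P287T.Fm.Tt
import Vale.Agent.P287T.Sv.Gen

/-!
# Vanishing of the first cohomology of the structure sheaf: a split extension
-/

open CategoryTheory Limits MvPolynomial

namespace Vale.Agent.P287T.Q0

open Vale.Agent.P287Z Vale.Agent.P287Z.Gr Vale.Agent.P287T.Fm Vale.Agent.P287T.Fm.La
  Vale.Agent.P294.V

variable {ν : ℕ} {M H : GrS ν}

/-- a map into a twist, in one degree -/
noncomputable def finE (N : ℤ) (f : M ⟶ (twS N).obj H) (a : ℤ) : M.obj ⟨a⟩ →+ H.obj ⟨a + N⟩ :=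
  ((f.app ⟨a⟩).hom.toAddMonoidHom :)

theorem finE_act (N : ℤ) (f : M ⟶ (twS N).obj H) (g : Sn ν) (a b : ℤ) (x : M.obj ⟨a⟩) :
    finE N f b (act M g a b x) = act H g (a + N) (b + N) (finE N f a x) :=
  (act_natural_apply f g a b x).trans congr($(act_tw H g N a b) (f.app ⟨a⟩ x))

/-- a map into a twist, on total modules, additive version -/
noncomputable def finA (N : ℤ) (f : M ⟶ (twS N).obj H) : Tot M →+ Tot H :=
  (DFinsupp.sumAddHom (β := fun m : ℤ => (M.obj ⟨m⟩ : Type)) fun a =>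
    (sgl H (a + N)).comp (finE N f a) :)

theorem finA_sgl (N : ℤ) (f : M ⟶ (twS N).obj H) (a : ℤ) (x : M.obj ⟨a⟩) :
    finA N f (sgl M a x) = sgl H (a + N) (finE N f a x) :=
  DFinsupp.sumAddHom_single (β := fun m : ℤ => (M.obj ⟨m⟩ : Type)) _ a x

theorem cmp_finA (N : ℤ) (f : M ⟶ (twS N).obj H) (b : ℤ) (t : Tot M) :
    cmp H (b + N) (finA N f t) = finE N f b (cmp M b t) := by
  obtain ⟨s, hs⟩ := exists_sum t
  rw [← hs, map_sum, map_sum, map_sum, map_sum]
  refine Finset.sum_congr rfl fun a _ => ?_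
  rw [finA_sgl]
  by_cases h : b = a
  · subst h
    rw [cmp_sgl, cmp_sgl]
  · rw [cmp_sgl_ne h, cmp_sgl_ne (by lia), map_zero]

/-- a map into a twist, on total modules -/
noncomputable def finL (N : ℤ) (f : M ⟶ (twS N).obj H) : Tot M →ₗ[Sn ν] Tot H where
  toFun := finA N f
  map_add' := map_add _
  map_smul' g t := by
    obtain ⟨s, hs⟩ := exists_sum t
    rw [← hs, Finset.smul_sum, map_sum, map_sum, Finset.smul_sum]
    refine Finset.sum_congr rfl fun a _ => cmp_ext fun b => ?_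
    obtain ⟨b, rfl⟩ : ∃ c, b = c + N := ⟨b - N, by ring⟩
    rw [cmp_finA, finA_sgl, RingHom.id_apply, cmp_smul_sgl, cmp_smul_sgl, finE_act]

theorem finL_sgl (N : ℤ) (f : M ⟶ (twS N).obj H) (a : ℤ) (x : M.obj ⟨a⟩) :
    finL N f (sgl M a x) = sgl H (a + N) (finE N f a x) := finA_sgl N f a x

theorem fin_rel {N : ℕ} {i j : Fin ν} {a : Sn ν} (ha : a.IsHomogeneous (2 * N)) (r : M ⟶ H)
    (e e' : M ⟶ (twS N).obj H) (h : ∀ (m : ℤ) (x : M.obj ⟨m⟩),
      act H (X j ^ N) (m + N) (m + N + N) (finE N e m x) -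
        act H (X i ^ N) (m + N) (m + N + N) (finE N e' m x) =
        act H a m (m + N + N) (r.app ⟨m⟩ x)) (x : Tot M) :
    (X j ^ N : Sn ν) • finL N e x - (X i ^ N : Sn ν) • finL N e' x = a • tL r x := by
  refine mem_of_sgl (Q := LinearMap.eqLocus ((X j ^ N : Sn ν) • finL N e -
    (X i ^ N : Sn ν) • finL N e') (a • tL r)) fun m => ?_
  have hX : ∀ k : Fin ν, Hg (2 * (m + N + N - (m + N))) (X k ^ N : Sn ν) :=
    fun k => Sv.hg_pow k N (by ring)
  have h5 : Hg (2 * (m + N + N - m)) a := by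
    rw [show m + N + N - m = ((2 * N : ℕ) : ℤ) by push_cast; ring]
    exact hg_of_hom ha
  change (X j ^ N : Sn ν) • finL N e _ - (X i ^ N : Sn ν) • finL N e' _ = a • tL r _
  rw [finL_sgl, finL_sgl, tL_sgl, hg_smul_sgl (hX j), hg_smul_sgl (hX i), hg_smul_sgl h5,
    ← map_sub, h]

theorem fin_hc {n : ℕ} {f : Sn ν} (hf : f.IsHomogeneous n) (g : Sn ν) (k : ℕ) :
    homogeneousComponent (n + k) (f * g) = f * homogeneousComponent k g := by
  rw [← hpart_two_mul, ← hpart_two_mul, hpart_mul (hg_of_hom hf)]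
  congr 2
  push_cast
  ring

/-- a map which is bijective in large degrees is bijective up to powers of the variables -/
theorem fin_ev (hM : fg M) (hH : fg H) (f : M ⟶ H) (n : ℤ)
    (hn : ∀ a ≥ n, Function.Bijective (f.app ⟨a⟩)) :
    ∃ c : ℕ, (∀ i x, tL f x = 0 → (X i ^ c : Sn ν) • x = 0) ∧
      ∀ i y, ∃ x, tL f x = (X i ^ c : Sn ν) • y := by
  obtain ⟨p, hp⟩ := Sv.low_zero hM
  obtain ⟨q, hq⟩ := Sv.low_zero hH
  obtain ⟨c, hc⟩ : ∃ c : ℕ, n ≤ p + c ∧ n ≤ q + c := ⟨(n - p).toNat + (n - q).toNat, by lia⟩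
  have hX : ∀ (i : Fin ν) (a : ℤ), Hg (2 * (a + c - a)) (X i ^ c : Sn ν) :=
    fun i a => Sv.hg_pow i c (by ring)
  refine ⟨c, fun i x hx => ?_, fun i y => ?_⟩
  · refine mem_of_sgl (Q := LinearMap.ker (LinearMap.lsmul _ _ (X i ^ c : Sn ν))) fun a => ?_
    change (X i ^ c : Sn ν) • sgl M a (cmp M a x) = 0
    by_cases h : a < p
    · rw [hp a h (cmp M a x), map_zero, smul_zero]
    · have h1 : act M (X i ^ c) a (a + c) (cmp M a x) = 0 := (hn (a + c) (by lia)).1 (by
        rw [act_natural_apply, ← cmp_tL, hx, map_zero, map_zero, map_zero])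
      rw [hg_smul_sgl (hX i a), h1, map_zero]
  · refine mem_of_sgl (Q := (LinearMap.range (tL f)).comap
      (LinearMap.lsmul _ _ (X i ^ c : Sn ν))) fun a => ?_
    change ∃ x, tL f x = (X i ^ c : Sn ν) • sgl H a (cmp H a y)
    by_cases h : a < q
    · exact ⟨0, by rw [hq a h (cmp H a y), map_zero, map_zero, smul_zero]⟩
    · obtain ⟨x, hx⟩ := (hn (a + c) (by lia)).2 (act H (X i ^ c) a (a + c) (cmp H a y))
      exact ⟨sgl M _ x, by rw [hg_smul_sgl (hX i a), tL_sgl, hx]⟩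

variable {I : Ideal (Sn ν)}

theorem fin_ann {A : GA I} (hA : ¬ Tor I A) (h : Sn ν) (h0 : ∀ y : Tot A.obj, h • y = 0) :
    h ∈ I := by
  rw [← sum_homogeneousComponent h]
  refine I.sum_mem fun n _ => by_contra fun hn => hA ⟨n, _,
    hg_of_hom (homogeneousComponent_isHomogeneous n h), hn, ObjectProperty.hom_ext _ ?_⟩
  ext a x
  have h1 := act_hpart A.obj h a.deg (a.deg + n)
  rw [add_sub_cancel_left, hpart_two_mul] at h1
  change act A.obj (homogeneousComponent n h) a.deg (a.deg + n) x = 0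
  rw [h1, ← cmp_smul_sgl, h0, map_zero]

variable [hI : Fact (IsHom I)]

theorem stFin_of (h : StTrc I) : StFin I := by
  intro hS N a ha H' H r e hrel ⟨⟨s, hs⟩⟩ hT
  obtain ⟨φ, rfl⟩ := Localization.exists_rightFraction (piI I) (tors I).isoModSerre s
  have h1 : (piI I).map (φ.f ≫ r) = (piI I).map φ.s := by
    rw [Functor.map_comp, ← φ.map_s_comp_map _ (Localization.inverts _ _), Category.assoc, hs,
      Category.comp_id]
  have h2 : (tors I).isoModSerre (φ.f ≫ r) := by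
    rw [← ObjectProperty.SerreClassLocalization.isIso_map_iff (piI I) (tors I), h1]
    exact Localization.inverts (piI I) _ _ φ.hs
  obtain ⟨n, hn⟩ : evIso I (φ.f ≫ r) := (isoModSerre_eq I).le _ h2
  obtain ⟨c, h3, h4⟩ := fin_ev φ.X'.2.2 H.2.2 _ n hn
  obtain ⟨M, b, hb⟩ := h hI.out hS N c a _ _ (tL (φ.f ≫ r).hom)
    (fun i => finL (H := H.obj) N (φ.f ≫ e i).hom) (fun f hf y => killGA H hf y) (fin_ann hT) h3 h4
    fun i j => fin_rel (ha i j) _ _ _ fun m x => hrel i j m _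
  refine ⟨M, fun i => homogeneousComponent (M + N) (b i),
    fun i => homogeneousComponent_isHomogeneous _ _, fun i j => ?_⟩
  have h5 := hI.out _ (hb i j) (M + N + (M + N))
  have h6 : ((X i * X j) ^ M * a i j).IsHomogeneous (M + N + (M + N)) := by
    rw [show M + N + (M + N) = (1 + 1) * M + 2 * N by ring]
    exact (((isHomogeneous_X _ i).mul (isHomogeneous_X _ j)).pow M).mul (ha i j)
  rwa [map_sub, map_sub, fin_hc (isHomogeneous_X_pow i _), fin_hc (isHomogeneous_X_pow j _),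
    homogeneousComponent_eq_self h6] at h5

end Vale.Agent.P287T.Q0
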