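import Vale.Agent.P287T.Q0.Cat
import Vale.Agent.P287T.Zg.Tri
import Vale.Agent.P287T.Kx.St

/-!
# Vanishing of the first cohomology of the structure sheaf from the steps
-/

open CategoryTheory Limits MvPolynomial Pretriangulated HomologicalComplex

universe w

namespace Vale.Agent.P287T.Q0

open Vale.Agent.P287Z Vale.Agent.P287T.Fm Vale.Agent.P287T.Cy Vale.Agent.P287T.G3
  Vale.Agent.P287T.Au Vale.Agent.P287Z.O Vale.Agent.P287T.Zg

variable {W : S6}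

theorem dz_one (F : HM W) : MF.dz (F⟦(1 : ℤ)⟧) = -F.dz :=
  (shift_dz 1 F).trans (neg_one_smul ℤ F.dz)

theorem zz_one {E F : HM W} {g : Matrix F.ι E.ι S6}
    (h : g ∈ ZZ E.pz E.dz (MF.pz (F⟦(1 : ℤ)⟧)) (MF.dz (F⟦(1 : ℤ)⟧)) 0) :
    g ∈ ZZ E.pz E.dz F.pz (-F.dz) 3 := by
  refine ⟨fun i l => ?_,
    (congrArg (fun d : Matrix F.ι F.ι S6 => d * g) (dz_one F)).symm.trans h.2⟩
  have h1 : 0 + E.pz l - MF.pz (F⟦(1 : ℤ)⟧) i = 3 + E.pz l - F.pz i := by rw [shift_pz]; ring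
  exact (congrArg (fun t => V.Hg t (g i l)) h1).mp (h.1 i l)

theorem bb_one {E F : HM W} (g : Matrix F.ι E.ι S6) :
    g ∈ BB E.pz E.dz (MF.pz (F⟦(1 : ℤ)⟧)) (MF.dz (F⟦(1 : ℤ)⟧)) 0 ↔
      g ∈ BB E.pz E.dz F.pz (-F.dz) 3 := by
  refine exists_congr fun s => and_congr (forall_congr' fun i => forall_congr' fun l => ?_) ?_
  · have h1 : 0 - 3 + E.pz l - MF.pz (F⟦(1 : ℤ)⟧) i = 3 - 3 + E.pz l - F.pz i :=
      (congrArg (0 - 3 + E.pz l - ·) (shift_pz 1 F i)).trans (by ring)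
    exact (congrArg (fun t => V.Hg t (s i l)) h1).to_iff
  · rw [dz_one]
    rfl

/-- the uniform statement in the language of categories -/
theorem StNat2.cat (hN : StNat2) (hW : V.Hg 6 W) (hs : Sm W) (A : ∀ E : HM W, E ⟶ E⟦(1 : ℤ)⟧)
    (hA : ∀ (E F : HM W) (x : E ⟶ F), A E ≫ x⟦(1 : ℤ)⟧' = x ≫ A F) :
    ∃ X : Fin 3 → HM W, (∀ i, A (X i) = 0) ∧ ∀ (n : ℕ) (Y : V.GMF W n), chg Y.p ≠ 0 →
      ∃ (i : Fin 3) (k : ℤ) (g : X i ⟶ (ofGMF Y)⟦k⟧), g ≠ 0 := by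
  choose α hα e using fun E => exists_mkR (A E)
  obtain ⟨m, X, h1, h2⟩ := hN W hW hs (fun n X => α (ofGMF X)) (fun n X => zz_one (hα (ofGMF X)))
    fun m n X Y f hf => by
      have := hA _ _ (mkR (E := ofGMF X) (F := ofGMF Y) f hf)
      rw [e, e] at this
      exact (bb_one (E := ofGMF X) (F := ofGMF Y) _).1 ((mkR_eq _ _).1
        ((mkR_comp (hα _) (DG.sh_mem (E := ofGMF X) (F := ofGMF Y) hf)).symm.trans
          (this.trans (mkR_comp (E := ofGMF X) (F := ofGMF Y) hf (hα _)))))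
  refine ⟨fun i => ofGMF (X i), fun i => (e _).trans ((mkR_eq_zero _).2
    ((bb_one (E := ofGMF (X i)) (F := ofGMF (X i)) _).2 (h1 i))), fun n Y hY => ?_⟩
  obtain ⟨i, hi⟩ := h2 n Y hY
  by_contra hc
  refine hi (finsum_eq_zero_of_forall_eq_zero fun k => ?_)
  have : Subsingleton (ofGMF (X i) ⟶ (ofGMF Y)⟦k⟧) :=
    subsingleton_of_forall_eq 0 fun g => not_not.1 fun hg => hc ⟨i, k, g, hg⟩
  have h3 := (finrank_sh (ofGMF (X i)) (ofGMF Y) k).symm.trans Module.finrank_zero_of_subsingleton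
  exact mul_eq_zero_of_right _ (Nat.cast_eq_zero.2 h3)

variable {ν : ℕ} {I : Ideal (Gr.Sn ν)} [Fact (IsHom I)]
  [HasDerivedCategory.{w} (P294Z.Coh (PI I))]

theorem h1_of (hW : V.Hg 6 W) (hs : Sm W) (hN : StNat2) (hE : StExt I) (hF : StFin I)
    (hD : StDev I) (hS : Surf I) (D : DG W (Gr.GA I)) [(D.map (piI I)).fd.Full]
    [(D.map (piI I)).fd.Faithful]
    (hb : ∀ E, (DerivedCategory.TStructure.t (C := P294Z.Coh (PI I))).bounded
      ((D.map (piI I)).fd.obj E))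
    (hp : ∀ v (hv : Pt I v), ∃ (n : ℕ) (Y : V.GMF W n), chg Y.p ≠ 0 ∧
      Nonempty ((D.map (piI I)).fd.obj (ofGMF Y) ≅
        (DerivedCategory.singleFunctor _ 2).obj (Ov I hv))) : Kx.H1p I := by
  intro N a ha hc
  obtain ⟨T⟩ := hE N a ha hc
  have := T.add
  let F := (D.map (piI I)).fd
  let δ : ∀ E : HM W, F.obj E ⟶ (F.obj E)⟦(1 : ℤ)⟧ := fun E => del T.ex (D.T E)
  have hδ : ∀ (E E' : HM W) (x : E ⟶ E'), δ E ≫ (F.map x)⟦(1 : ℤ)⟧' = F.map x ≫ δ E' := by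
    intro E E' x
    obtain ⟨f, hf, rfl⟩ := exists_mkR x
    rw [DG.fd_map]
    exact del_nat T.ex (D.hom f hf)
  obtain ⟨X, h1, h2⟩ := hN.cat hW hs
    (fun E => F.preimage (δ E ≫ (F.commShiftIso (1 : ℤ)).inv.app E)) fun E E' x => by
      refine F.map_injective ?_
      rw [F.map_comp, F.map_comp, F.map_preimage, F.map_preimage, Category.assoc,
        ← F.commShiftIso_inv_naturality, ← Category.assoc, hδ, Category.assoc]
  have h3 : ∀ i, δ (X i) = 0 := fun i => by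
    have := congrArg F.map (h1 i)
    rw [F.map_preimage, F.map_zero] at this
    rw [← cancel_mono ((F.commShiftIso (1 : ℤ)).inv.app (X i)), this, zero_comp]
  by_cases h : ∀ i j, Tor I ((D.T (X i)).homology j)
  · obtain ⟨v, hv, h4⟩ := hD hS (fun i => D.T (X i)) (fun i => hb (X i)) h
    obtain ⟨n, Y, hY, ⟨e⟩⟩ := hp v hv
    obtain ⟨i, k, g, hg⟩ := h2 n Y hY
    let e' : F.obj ((ofGMF Y)⟦k⟧) ≅ ((sg I).obj (Ov I hv))⟦k - 2⟧ :=
      (F.commShiftIso k).app _ ≪≫ (shiftFunctor _ k).mapIso e ≪≫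
        ((DerivedCategory.singleFunctors _).shiftIso k (2 - k) 2 (by ring)).app _ ≪≫
        (((DerivedCategory.singleFunctors _).shiftIso (k - 2) (2 - k) 0 (by ring)).app _).symm
    refine absurd (F.map_injective ?_) hg
    rw [F.map_zero, ← cancel_mono e'.hom, zero_comp]
    exact h4 i (k - 2) _
  · obtain ⟨i, hi⟩ := not_forall.1 h
    obtain ⟨j, hj⟩ := not_forall.1 hi
    obtain ⟨e, he⟩ := T.rel_homology (D.T (X i)) j
    exact hF hS N a ha _ _ _ e he (split T.ex (h3 i) j) hj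

end Vale.Agent.P287T.Q0
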