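import Vale.Agent.P287T.Au.St

/-!
# Natural transformations from the identity to the shift: the uniform statement
-/

namespace Vale.Agent.P287T.Q0

open Vale.Agent.P287T.Cy Vale.Agent.P287T.Au Vale.Agent.P287Z.O

/-- **NAT**, uniform form: a natural transformation from the identity to the shift vanishes on three
objects which detect every object of nonzero charge. -/
def StNat2 : Prop := ∀ W : S6, V.Hg 6 W → Sm W →
  ∀ α : ∀ n : ℕ, V.GMF W n → Matrix (Fin n) (Fin n) S6,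
    (∀ n X, α n X ∈ ZZ X.p X.d X.p (-X.d) 3) →
    (∀ m n (X : V.GMF W m) (Y : V.GMF W n), ∀ f ∈ ZZ X.p X.d Y.p Y.d 0,
      f * α m X - α n Y * f ∈ BB X.p X.d Y.p (-Y.d) 3) →
    ∃ (m : ℕ) (X : Fin 3 → V.GMF W m),
      (∀ i, α m (X i) ∈ BB (X i).p (X i).d (X i).p (-(X i).d) 3) ∧
      ∀ (n : ℕ) (Y : V.GMF W n), chg Y.p ≠ 0 → ∃ i, eul (X i).p (X i).d Y.p Y.d ≠ 0

end Vale.Agent.P287T.Q0
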