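import Vale.Agent.P287T.Au.Nat
import Vale.Agent.P287T.Q0.St

/-!
# Natural transformations from the identity to the shift: the uniform statement holds
-/

namespace Vale.Agent.P287T.Q0

open Vale.Agent.P287T.Cy Vale.Agent.P287T.Au Vale.Agent.P287Z.O

theorem stNat2 : StNat2 := by
  intro W hW hs α hα hn
  obtain ⟨m, ⟨Q⟩⟩ := exists_clf 6
  refine ⟨m, fun i => Q.G hW (i : ℕ), fun i => Q.G_bb hW hs _ (α m) (hα m) (hn m m),
    fun n Y hY => ?_⟩
  by_contra! hc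
  have h1 := fun i : Fin 3 => congrArg (Int.cast : ℤ → ℂ)
    ((Q.eul_eq hW (ww_hg hW) (ww_X hW) (isMF_gmf Y) (i : ℕ)).symm.trans (hc i))
  simp only [Int.cast_sum, Int.cast_zero] at h1
  have a0 : ∑ k, (sgn 0 (Y.p k) : ℂ) = 0 := h1 0
  have a1 : ∑ k, (sgn 1 (Y.p k) : ℂ) = 0 := h1 1
  have a2 : ∑ k, (sgn 2 (Y.p k) : ℂ) = 0 := h1 2
  apply hY
  simp only [chg, zeta_pow, Finset.sum_add_distrib, ← Finset.sum_mul, a0, a1, a2, zero_mul,
    add_zero]

end Vale.Agent.P287T.Q0
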