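import Vale.Agent.P287T.Q0.If
import Vale.Agent.P287T.Fm.Tt
import Vale.Agent.P287T.Kx.Aff
import Vale.Agent.P299.Q.EtaleNormal
import Mathlib.RingTheory.Localization.AsSubring
import Mathlib.RingTheory.LocalProperties.IntegrallyClosed

/-!
# The punctured cone over a smooth integral surface is normal
-/

open MvPolynomial
open scoped nonZeroDivisors

namespace Vale.Agent.P287T.Q0

open Vale.Agent.P287Z Vale.Agent.P287T.Fm

theorem nrm_smooth (T : Type) [CommRing T] [IsDomain T] [Algebra ℂ T] [Algebra.Smooth ℂ T] :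
    IsIntegrallyClosed T :=
  .of_localization_maximal fun p _ _ =>
    P299.Q.isIntegrallyClosed_of_smooth_of_atPrime ℂ T (Localization.AtPrime p) p

theorem nrm_std {T : Type} [CommRing T] [IsDomain T] [Algebra ℂ T] {n : ℕ}
    (h : Algebra.IsStandardSmoothOfRelativeDimension n ℂ T) : IsIntegrallyClosed T :=
  have := Algebra.IsStandardSmoothOfRelativeDimension.isStandardSmooth n (R := ℂ) (S := T)
  nrm_smooth T

variable {ν : ℕ} {I : Ideal (Gr.Sn ν)}

theorem nrm_loc (hs : Surf I) {K : Type} [Field K] [Algebra (Gr.Sn ν) K]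
    (hk : RingHom.ker (algebraMap (Gr.Sn ν) K) = I)
    (hq : ∀ t : K, ∃ p q : Gr.Sn ν, q ∉ I ∧ algebraMap _ K q * t = algebraMap _ K p)
    {t : K} (ht : IsIntegral (Gr.Sn ν) t) {v : Fin ν → ℂ} (hv : Pt I v) :
    ∃ f g : Gr.Sn ν, eval v f ≠ 0 ∧ algebraMap _ K f * t = algebraMap _ K g := by
  obtain ⟨c, g, h, h1, h2, h3, h4, h5⟩ := hs.jac v hv
  have hp := hs.prime
  obtain ⟨b, b1, b2⟩ := Kx.exists_minor (fun j k => eval v (pderiv j (g k))) (by
    refine Submodule.eq_top_of_finrank_eq ?_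
    have h6 := LinearIndependent.rank_matrix
      (M := Matrix.of fun k j => eval v (pderiv j (g k))) h3
    rw [Matrix.rank_eq_finrank_span_cols] at h6
    exact h6.trans (Module.finrank_fintype_fun_eq_card ℂ).symm)
  set η := h * (Matrix.of fun i j => pderiv (b i) (g j)).det with hη
  have h6 : eval v η ≠ 0 := by
    rw [hη, map_mul, RingHom.map_det]
    exact mul_ne_zero h4 b2
  have h7 : η ∉ I := fun k => h6 (La.ptI_le v (hv.2 k))
  have h0 : ∀ f, algebraMap (Gr.Sn ν) K f = 0 ↔ f ∈ I := fun f => hk ▸ Iff.rfl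
  let _ : Algebra (Gr.Sn ν ⧸ I) K :=
    (Ideal.Quotient.lift I (algebraMap (Gr.Sn ν) K) fun f => (h0 f).2).toAlgebra
  have e : ∀ f, algebraMap (Gr.Sn ν ⧸ I) K (Ideal.Quotient.mk I f) = algebraMap _ K f :=
    fun _ => rfl
  let _ : Algebra ℂ K := ((algebraMap (Gr.Sn ν) K).comp (algebraMap ℂ _)).toAlgebra
  have := IsScalarTower.of_algebraMap_eq (R := ℂ) (S := Gr.Sn ν ⧸ I) (A := K) fun _ => rfl
  have := IsScalarTower.of_algebraMap_eq (R := Gr.Sn ν) (S := Gr.Sn ν ⧸ I) (A := K) fun _ => rfl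
  have : FaithfulSMul (Gr.Sn ν ⧸ I) K := (faithfulSMul_iff_algebraMap_injective _ _).2
    ((injective_iff_map_eq_zero _).2 fun x hx => by
      obtain ⟨x, rfl⟩ := Ideal.Quotient.mk_surjective x
      exact Ideal.Quotient.eq_zero_iff_mem.2 ((h0 x).1 hx))
  have : IsFractionRing (Gr.Sn ν ⧸ I) K := .of_field _ _ fun z => by
    obtain ⟨p, q, k1, k2⟩ := hq z
    exact ⟨Ideal.Quotient.mk I p, Ideal.Quotient.mk I q,
      eq_div_of_mul_eq (fun k => k1 ((h0 q).1 k)) ((mul_comm _ _).trans k2)⟩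
  have hle : Submonoid.powers (Ideal.Quotient.mkₐ ℂ I η) ≤ (Gr.Sn ν ⧸ I)⁰ :=
    Submonoid.powers_le.2 (mem_nonZeroDivisors_of_ne_zero fun k =>
      h7 (Ideal.Quotient.eq_zero_iff_mem.1 k))
  let T := Localization.subalgebra.ofField K _ hle
  have : IsLocalization.Away (Ideal.Quotient.mkₐ ℂ I η) T :=
    Localization.subalgebra.isLocalization_ofField K _ hle
  have := Kx.std_of (n := 3) (T := T) (Ideal.Quotient.mkₐ ℂ I) (Ideal.Quotient.mkₐ_surjective _ _)
    (by rw [Fintype.card_fin, Fintype.card_fin, add_comm, h1]) b1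
    (fun j => Ideal.Quotient.eq_zero_iff_mem.2 (h2 j))
    fun f hf => h5 f (Ideal.Quotient.eq_zero_iff_mem.1 hf)
  have := nrm_std this
  have h8 : IsIntegral (Gr.Sn ν ⧸ I) t := ht.tower_top
  obtain ⟨y, rfl⟩ := (isIntegrallyClosed_iff K).1 this (h8.tower_top (A := T))
  obtain ⟨n, a, h9⟩ := IsLocalization.Away.surj (Ideal.Quotient.mkₐ ℂ I η) y
  obtain ⟨a, rfl⟩ := Ideal.Quotient.mk_surjective a
  refine ⟨η ^ n, a, by rw [map_pow]; exact pow_ne_zero _ h6, ?_⟩
  rw [map_pow, mul_comm]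
  exact congrArg Subtype.val h9

theorem stNrm (I : Ideal (Gr.Sn ν)) : StNrm I := by
  intro hI hs K _ _ hk hq t ht i
  let J : Ideal (Gr.Sn ν) :=
    { carrier := {f | ∃ g, algebraMap (Gr.Sn ν) K f * t = algebraMap _ K g}
      zero_mem' := ⟨0, by simp⟩
      add_mem' := fun ⟨g, a⟩ ⟨g', b⟩ => ⟨g + g', by rw [map_add, map_add, add_mul, a, b]⟩
      smul_mem' := fun c _ ⟨g, a⟩ => ⟨c * g, by rw [smul_eq_mul, map_mul, map_mul, mul_assoc, a]⟩ }
  have h1 : I ≤ J := fun f hf => ⟨0, by rw [RingHom.mem_ker.1 (hk.ge hf), zero_mul, map_zero]⟩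
  refine La.nst (J := J) fun v hv => ?_
  by_contra k
  obtain ⟨f, g, a, b⟩ := nrm_loc hs hk hq ht (v := v)
    ⟨fun e => k (by rw [e, eval_X, Pi.zero_apply]), La.le_ptI (Gr.ih_iff.2 hI) (h1.trans hv)⟩
  exact a (hv ⟨g, b⟩)

end Vale.Agent.P287T.Q0
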