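import Vale.Agent.P287T.Q0.If
import Vale.Agent.P287T.Au.Tr
import Mathlib.RingTheory.LocalRing.Module

/-!
# Vanishing of the first cohomology of the structure sheaf: the trace argument
-/

open MvPolynomial TensorProduct

namespace Vale.Agent.P287T.Q0

open Vale.Agent.P287Z Vale.Agent.P287T.Fm Vale.Agent.P294.V

/-- the trace of the base change of an endomorphism of a finite module is integral -/
theorem trc_int {A K T : Type} [CommRing A] [Field K] [Algebra A K] [AddCommGroup T] [Module A T]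
    [Module.Finite A T] (θ : T →ₗ[A] T) :
    IsIntegral A (LinearMap.trace K _ (θ.baseChange K)) := by
  obtain ⟨p, hp, h0⟩ := LinearMap.exists_monic_and_aeval_eq_zero A θ
  have h1 : Polynomial.aeval (θ.baseChange K) (p.map (algebraMap A K)) = 0 := by
    rw [Polynomial.aeval_map_algebraMap]
    exact (Polynomial.aeval_algHom_apply (Module.End.baseChangeHom A K T) θ p).trans
      (by rw [h0, map_zero])
  let b := Module.finBasis K (K ⊗[A] T)
  have h2 : Polynomial.aeval (LinearMap.toMatrixAlgEquiv b (θ.baseChange K))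
      (p.map (algebraMap A K)) = 0 := by
    rw [Polynomial.aeval_algHom_apply (LinearMap.toMatrixAlgEquiv b), h1, map_zero]
  rw [LinearMap.trace_eq_matrix_trace K b]
  exact Au.tr_int _ p hp h2

/-- an inverse up to the square of a scalar -/
theorem trc_inv {A T₀ T₁ : Type} [CommRing A] [AddCommGroup T₀] [Module A T₀] [AddCommGroup T₁]
    [Module A T₁] (t : T₀ →ₗ[A] T₁) (z : A) (h0 : ∀ x, t x = 0 → z • x = 0)
    (h1 : ∀ y, ∃ x, t x = z • y) :
    ∃ s : T₁ →ₗ[A] T₀, (∀ y, t (s y) = z ^ 2 • y) ∧ ∀ x, s (t x) = z ^ 2 • x := by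
  choose u hu using h1
  have key : ∀ x x', t x = t x' → z • x = z • x' := fun x x' h =>
    sub_eq_zero.1 (by rw [← smul_sub]; exact h0 _ (by rw [map_sub, h, sub_self]))
  refine ⟨⟨⟨fun y => z • u y, fun y y' => ?_⟩, fun a y => ?_⟩, fun y => ?_, fun x => ?_⟩
  · rw [← smul_add]
    exact key _ _ (by rw [map_add, hu, hu, hu, smul_add])
  · rw [RingHom.id_apply, smul_comm a z]
    exact key _ _ (by rw [map_smul, hu, hu, smul_comm])
  · change t (z • u y) = _
    rw [map_smul, hu, pow_two, mul_smul]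
  · change z • u (t x) = _
    rw [pow_two, mul_smul]
    exact key _ _ (by rw [hu, map_smul])

variable {ν : ℕ} {I : Ideal (Gr.Sn ν)}

theorem stTrc_of (h : StNrm I) : StTrc I := by
  intro hI hS N c a T₀ T₁ _ _ _ _ _ t ψ _ hann h0 h1 hrel
  have := hS.prime
  let K := I.ResidueField
  let f : Gr.Sn ν →+* K := algebraMap (Gr.Sn ν) K
  have hker : ∀ x, f x = 0 ↔ x ∈ I := fun x => Ideal.algebraMap_residueField_eq_zero
  have hnt : Nontrivial (K ⊗[Gr.Sn ν] T₁) :=
    (Module.mem_support_iff_nontrivial_residueField_tensorProduct ⟨I, this⟩).1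
      (Module.mem_support_iff_of_finite.2 fun g hg => hann g (Module.mem_annihilator.1 hg))
  have hfr : ∀ t : K, ∃ p q : Gr.Sn ν, q ∉ I ∧ f q * t = f p := fun t => by
    obtain ⟨p, q, hq, rfl⟩ := IsFractionRing.div_surjective (A := Gr.Sn ν ⧸ I) t
    obtain ⟨p, rfl⟩ := Ideal.Quotient.mk_surjective p
    obtain ⟨q, rfl⟩ := Ideal.Quotient.mk_surjective q
    have h2 : q ∉ I := fun e => nonZeroDivisors.ne_zero hq (Ideal.Quotient.eq_zero_iff_mem.2 e)
    exact ⟨p, q, h2, mul_div_cancel₀ (f p) fun e => h2 ((hker q).1 e)⟩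
  choose s hs hs' using fun i => trc_inv t (X i ^ c) (h0 i) (h1 i)
  let τ : Fin ν → K := fun i => LinearMap.trace K _ ((ψ i ∘ₗ s i).baseChange K)
  choose M₀ g₀ hg₀ using fun i =>
    h hI hS K I.ker_algebraMap_residueField hfr (τ i) (trc_int _) i
  obtain ⟨M, hM⟩ := (Set.finite_range M₀).bddAbove
  have hg : ∀ i, ∃ g, f (X i) ^ M * τ i = f g := fun i => by
    obtain ⟨k, hk⟩ := Nat.exists_eq_add_of_le (hM ⟨i, rfl⟩)
    refine ⟨X i ^ k * g₀ i, ?_⟩
    rw [map_mul, ← hg₀ i, hk, map_pow, map_pow]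
    ring
  choose g hg using hg
  set r := Module.finrank K (K ⊗[Gr.Sn ν] T₁)
  have hr : (r : ℂ) ≠ 0 := Nat.cast_ne_zero.2 Module.finrank_pos.ne'
  have hr' : f (C (r : ℂ)⁻¹) * r = 1 := by
    rw [← map_natCast f, ← map_mul, ← map_natCast (C : ℂ →+* Gr.Sn ν), ← map_mul,
      inv_mul_cancel₀ hr, map_one, map_one]
  have key : ∀ i j, f (X j) ^ (N + c * 2) * τ i - f (X i) ^ (N + c * 2) * τ j =
      f (a i j) * (f (X i) * f (X j)) ^ (c * 2) * r := fun i j => by
    have e : (X j ^ (N + c * 2) : Gr.Sn ν) • (ψ i ∘ₗ s i) -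
        (X i ^ (N + c * 2) : Gr.Sn ν) • (ψ j ∘ₗ s j) =
        (a i j * (X i * X j) ^ (c * 2)) • LinearMap.id := by
      ext y
      have e1 : ((X j ^ c) ^ 2 : Gr.Sn ν) • s i y = ((X i ^ c) ^ 2 : Gr.Sn ν) • s j y := by
        rw [← map_smul, ← hs j y, hs']
      have e2 := hrel i j (((X j ^ c) ^ 2 : Gr.Sn ν) • s i y)
      rw [map_smul (ψ i), map_smul t, hs, e1, map_smul] at e2
      simp only [LinearMap.sub_apply, LinearMap.smul_apply, LinearMap.comp_apply,
        LinearMap.id_apply, pow_add, pow_mul, mul_smul, mul_pow]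
      rw [e2, smul_comm ((X j ^ c) ^ 2 : Gr.Sn ν)]
    have e3 := congrArg (fun θ => LinearMap.trace K _ (LinearMap.baseChange K θ))
      (sub_eq_iff_eq_add.1 e)
    simp only [LinearMap.baseChange_add, LinearMap.baseChange_smul, LinearMap.baseChange_id,
      ← algebraMap_smul K (_ : Gr.Sn ν), map_add, map_smul, LinearMap.trace_id, smul_eq_mul,
      map_pow, map_mul] at e3
    exact sub_eq_iff_eq_add.2 e3
  refine ⟨c * 2 + M, fun i => -(C (r : ℂ)⁻¹ * g i), fun i j => (hker _).1 ?_⟩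
  simp only [map_sub, map_mul, map_pow, map_neg, ← hg]
  linear_combination (-(f (C (r : ℂ)⁻¹) * (f (X i) * f (X j)) ^ M)) * key i j -
    (f (X i) * f (X j)) ^ (c * 2 + M) * f (a i j) * hr'

end Vale.Agent.P287T.Q0
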