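import Vale.Agent.P287T.Q0.Glue
import Vale.Agent.P287T.Q0.Nat
import Vale.Agent.P287T.Q0.Ext
import Vale.Agent.P287T.Q0.Fin
import Vale.Agent.P287T.Q0.Trc
import Vale.Agent.P287T.Q0.Nrm
import Vale.Agent.P287T.Q0.Dev
import Vale.Agent.P287T.Fm.Dt3

/-!
# Block H1: the vanishing of the first cohomology of the structure sheaf
-/

open CategoryTheory MvPolynomial

universe w

namespace Vale.Agent.P287T.Q0

open Vale.Agent.P287Z Vale.Agent.P287T.Fm

theorem stH1 : Au.StH1.{w} := fun _ hW _ I _ _ hs hI K r U h hp hc =>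
  haveI := Dt.full h
  haveI := Dt.faithful h
  h1_of (G3.hg_of_isHomogeneous hW.out) hs stNat2 (stExt I) (stFin_of (stTrc_of (stNrm I)))
    (stDev I) hI (Dt.dg0 K) (Dt.bdd h) fun v hv =>
      ⟨r v, U v, hc v hv, ⟨(Dt.fd_iso K (U v)).some ≪≫ (hp v hv).some⟩⟩

end Vale.Agent.P287T.Q0
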