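import Vale.Agent.P287T.Fm.ExL
import Vale.Agent.P287T.Q0.St

/-!
# Vanishing of the first cohomology of the structure sheaf: the steps
-/

open CategoryTheory Limits MvPolynomial

universe w

namespace Vale.Agent.P287T.Q0

open Vale.Agent.P287Z Vale.Agent.P287T.Fm Vale.Agent.P294.V

variable {ν : ℕ} (I : Ideal (Gr.Sn ν))

/-- step NRM: the punctured cone is normal -/
def StNrm : Prop := IsHom I → Surf I → ∀ (K : Type) [Field K] [Algebra (Gr.Sn ν) K],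
  RingHom.ker (algebraMap (Gr.Sn ν) K) = I →
  (∀ t : K, ∃ p q : Gr.Sn ν, q ∉ I ∧ algebraMap _ K q * t = algebraMap _ K p) →
  ∀ t : K, IsIntegral (Gr.Sn ν) t → ∀ i, ∃ (M : ℕ) (g : Gr.Sn ν),
    algebraMap (Gr.Sn ν) K (X i ^ M) * t = algebraMap _ K g

/-- step TRC: the trace argument -/
def StTrc : Prop := IsHom I → Surf I → ∀ (N c : ℕ) (a : Fin ν → Fin ν → Gr.Sn ν) (T₀ T₁ : Type)
  [AddCommGroup T₀] [Module (Gr.Sn ν) T₀] [AddCommGroup T₁] [Module (Gr.Sn ν) T₁]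
  [Module.Finite (Gr.Sn ν) T₁] (t : T₀ →ₗ[Gr.Sn ν] T₁) (ψ : Fin ν → (T₀ →ₗ[Gr.Sn ν] T₁)),
  (∀ f ∈ I, ∀ y : T₁, f • y = 0) → (∀ h : Gr.Sn ν, (∀ y : T₁, h • y = 0) → h ∈ I) →
  (∀ i x, t x = 0 → (X i ^ c : Gr.Sn ν) • x = 0) →
  (∀ i y, ∃ x, t x = (X i ^ c : Gr.Sn ν) • y) →
  (∀ i j x, (X j ^ N : Gr.Sn ν) • ψ i x - (X i ^ N : Gr.Sn ν) • ψ j x = a i j • t x) →
  ∃ (M : ℕ) (b : Fin ν → Gr.Sn ν),
    ∀ i j, (X i * X j) ^ M * a i j - (X i ^ (M + N) * b j - X j ^ (M + N) * b i) ∈ I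

/-- modules killed by a form which is not in `I` -/
def Tor (M : Gr.GA I) : Prop :=
  ∃ (d : ℕ) (h : Gr.Sn ν) (hh : Hg (2 * (d : ℤ)) h), h ∉ I ∧ (mulA I hh).app M = 0

variable {I} in
/-- the relation `y j ^ N * e i - y i ^ N * e j = a i j * r` -/
def Rel (N : ℕ) (a : Fin ν → Fin ν → Gr.Sn ν) {H' H : Gr.GA I} (r : H' ⟶ H)
    (e : Fin ν → (H' ⟶ (Gr.twA I N).obj H)) : Prop :=
  ∀ (i j : Fin ν) (m : ℤ) (x : H'.obj.obj ⟨m⟩),
    Gr.act H.obj (X j ^ N) (m + N) (m + N + N) ((e i).hom.app ⟨m⟩ x) -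
      Gr.act H.obj (X i ^ N) (m + N) (m + N + N) ((e j).hom.app ⟨m⟩ x) =
      Gr.act H.obj (a i j) m (m + N + N) (r.hom.app ⟨m⟩ x)

variable [Fact (IsHom I)]

/-- step FIN: a split extension of a module which is not torsion -/
def StFin : Prop := Surf I → ∀ (N : ℕ) (a : Fin ν → Fin ν → Gr.Sn ν),
  (∀ i j, (a i j).IsHomogeneous (2 * N)) → ∀ (H' H : Gr.GA I) (r : H' ⟶ H)
    (e : Fin ν → (H' ⟶ (Gr.twA I N).obj H)), Rel N a r e → IsSplitEpi ((piI I).map r) →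
    ¬ Tor I H → ∃ (M : ℕ) (b : Fin ν → Gr.Sn ν), (∀ i, (b i).IsHomogeneous (M + N)) ∧
      ∀ i j, (X i * X j) ^ M * a i j - (X i ^ (M + N) * b j - X j ^ (M + N) * b i) ∈ I

/-- the functorial extension given by a cocycle -/
structure Ext (N : ℕ) (a : Fin ν → Fin ν → Gr.Sn ν) where
  E : Gr.GA I ⥤ Gr.GA I
  add : E.Additive
  ι : 𝟭 _ ⟶ E
  ρ : E ⟶ 𝟭 _
  η : Fin ν → (E ⟶ Gr.twA I N)
  w : ∀ M, ι.app M ≫ ρ.app M = 0
  ex : ∀ M, ((ShortComplex.mk (ι.app M) (ρ.app M) (w M)).map (piI I)).ShortExact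
  rel : ∀ M, Rel N a (ρ.app M) fun i => (η i).app M

/-- step EXT -/
def StExt : Prop := ∀ (N : ℕ) (a : Fin ν → Fin ν → Gr.Sn ν),
  (∀ i j, (a i j).IsHomogeneous (2 * N)) →
  (∀ i j k, X k ^ N * a i j + X i ^ N * a j k - X j ^ N * a i k ∈ I) → Nonempty (Ext I N a)

variable [HasDerivedCategory.{w} (P294Z.Coh (PI I))]

/-- step DEV: complexes with torsion cohomology have no maps to the sheaf of a general point -/
def StDev : Prop := Surf I → ∀ C : Fin 3 → CochainComplex (Gr.GA I) ℤ,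
  (∀ i, (DerivedCategory.TStructure.t (C := P294Z.Coh (PI I))).bounded ((QS I).obj (C i))) →
  (∀ i j, Tor I ((C i).homology j)) → ∃ (v : Fin ν → ℂ) (hv : Pt I v), ∀ (i : Fin 3) (k : ℤ)
    (ξ : (QS I).obj (C i) ⟶ ((sg I).obj (Ov I hv))⟦k⟧), ξ = 0

end Vale.Agent.P287T.Q0
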