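import Vale.Agent.P287T.Fm.Dt3
import Vale.Agent.P287T.Q0.Glue
import Vale.Agent.P287T.Q0.Nat
import Vale.Agent.P287T.Q0.Ext
import Vale.Agent.P287T.Q0.Fin
import Vale.Agent.P287T.Q0.Trc
import Vale.Agent.P287T.Q0.Nrm
import Vale.Agent.P287T.Q0.Dev

/-!
# Vanishing of the first cohomology of the structure sheaf
-/

open CategoryTheory

universe w

namespace Vale.Agent.P287T.Q0.MB

open Vale.Agent.P287T.G3

theorem stH1D : Fm.Dt.StH1D.{w} := fun _ hW _ I _ _ hs hI D _ _ hb hp =>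
  h1_of (hg_of_isHomogeneous hW.out) hs stNat2 (stExt I) (stFin_of (stTrc_of (stNrm I)))
    (stDev I) hI D hb fun v hv => by
      obtain ⟨Y, h, ⟨e⟩⟩ := hp v hv
      refine ⟨_, toGMF Y, fun h' => h (Eq.trans ?_ h'), ⟨Functor.mapIso _ (toGMFIso Y) ≪≫ e⟩⟩
      unfold Au.chg
      exact ((Fintype.equivFin Y.ι).symm.sum_comp _).symm

theorem stH1 : Au.StH1.{w} := Fm.Dt.stH1_of stH1D

end Vale.Agent.P287T.Q0.MB
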